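import Mathlib
import Vale.Agent.Lib.P201.helper60.FreeKernel

/-!
# Direct and stable finiteness pass up extensions with free kernel (every characteristic)

`K` a commutative ring, `N` a normal subgroup of `G` which is a free group.  If `K[G ⧸ N]` is
directly finite then so is `K[G]`; the same for the rings of `n × n` matrices.
-/

namespace Vale.Agent.Lib.P194.H60

open Vale.Agent.Lib.P201 Vale.Agent.Lib.P201.Free

section

variable {K : Type*} [CommRing K] {G : Type*} [Group G]

/-- Matrix form of the separation argument: if the powers of the kernel of `K[G] → K[G ⧸ N]`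
intersect in zero, direct finiteness of `n × n` matrices passes up. -/
theorem matrix_directlyFinite_of_sep (N : Subgroup G) [N.Normal]
    (hsep : ∀ a : MonoidAlgebra K G, (∀ m : ℕ, a ∈ T (K := K) N m) → a = 0) (n : ℕ)
    (hQ : ∀ A B : Matrix (Fin n) (Fin n) (MonoidAlgebra K (G ⧸ N)), A * B = 1 → B * A = 1) :
    ∀ A B : Matrix (Fin n) (Fin n) (MonoidAlgebra K G), A * B = 1 → B * A = 1 := by
  intro A B hAB
  have h1 : (proj K N).mapMatrix A * (proj K N).mapMatrix B = 1 := by
    rw [← map_mul, hAB, map_one]
  have h2 := hQ _ _ h1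
  have hker : (proj K N).mapMatrix (1 - B * A) = 0 := by
    rw [map_sub, map_one, map_mul, h2, sub_self]
  have hidem : (1 - B * A) * (1 - B * A) = 1 - B * A := by
    have hb : B * A * (B * A) = B * A := by
      calc B * A * (B * A) = B * (A * B) * A := by simp only [mul_assoc]
        _ = B * A := by rw [hAB, mul_one]
    calc (1 - B * A) * (1 - B * A) = 1 - B * A - B * A + B * A * (B * A) := by noncomm_ring
      _ = 1 - B * A := by rw [hb]; abel
  have hT1 : ∀ i j, (1 - B * A) i j ∈ T (K := K) N 1 := by
    intro i j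
    refine (mem_T_one_iff N _).mpr ?_
    have h3 := congrFun (congrFun hker i) j
    simpa [RingHom.mapMatrix_apply, Matrix.map_apply] using h3
  have hall : ∀ (m : ℕ) (i j : Fin n), (1 - B * A) i j ∈ T (K := K) N m := by
    intro m
    induction m with
    | zero => intro i j; exact mem_T_zero N _
    | succ m ih =>
      intro i j
      have h3 : ((1 - B * A) * (1 - B * A)) i j ∈ T (K := K) N (m + 1) := by
        rw [Matrix.mul_apply]
        refine AddSubmonoid.sum_mem _ ?_
        intro k _
        exact T_mul_T_one N m _ _ (ih i k) (hT1 k j)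
      rwa [hidem] at h3
  have h0 : (1 : Matrix (Fin n) (Fin n) (MonoidAlgebra K G)) - B * A = 0 := by
    refine Matrix.ext (fun i j => ?_)
    rw [Matrix.zero_apply]
    exact hsep _ (fun m => hall m i j)
  exact (sub_eq_zero.mp h0).symm

/-- The powers of the kernel of `K[G] → K[G ⧸ N]` intersect in zero when `N` is the range of
an injective homomorphism from a free group. -/
theorem sep_free {X : Type*} (ι : FreeGroup X →* G) (hι : Function.Injective ι)
    (N : Subgroup G) [N.Normal] (hN : N = ι.range)
    (a : MonoidAlgebra K G) (ha : ∀ m : ℕ, a ∈ T (K := K) N m) : a = 0 :=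
  sep_of_free ι hι N hN (dfox K X) dfox_h1 dfox_h4
    (dfox_h5 (fun P h0 hD => H40.lemmaC K P h0 hD)) a ha

/-- An isomorphism of a normal subgroup with a free group, in the `ι` form. -/
theorem exists_free_param (N : Subgroup G) [IsFreeGroup N] :
    ∃ ι : FreeGroup (IsFreeGroup.Generators N) →* G, Function.Injective ι ∧ N = ι.range := by
  refine ⟨N.subtype.comp (IsFreeGroup.toFreeGroup N).symm.toMonoidHom, ?_, ?_⟩
  · intro a b hab
    have h1 : (IsFreeGroup.toFreeGroup N).symm a = (IsFreeGroup.toFreeGroup N).symm b :=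
      Subtype.ext hab
    exact (IsFreeGroup.toFreeGroup N).symm.injective h1
  · ext g
    constructor
    · intro hg
      refine ⟨IsFreeGroup.toFreeGroup N ⟨g, hg⟩, ?_⟩
      simp
    · rintro ⟨w, rfl⟩
      exact ((IsFreeGroup.toFreeGroup N).symm w).2

/-- **Direct finiteness passes up extensions with free kernel.** -/
theorem free_up (N : Subgroup G) [N.Normal] [IsFreeGroup N]
    (hQ : ∀ a b : MonoidAlgebra K (G ⧸ N), a * b = 1 → b * a = 1) :
    ∀ a b : MonoidAlgebra K G, a * b = 1 → b * a = 1 := by
  obtain ⟨ι, hι, hN⟩ := exists_free_param N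
  exact directlyFinite_of_sep N (fun a ha => sep_free ι hι N hN a ha) hQ

/-- **Stable finiteness passes up extensions with free kernel.** -/
theorem free_up_matrix (N : Subgroup G) [N.Normal] [IsFreeGroup N] (n : ℕ)
    (hQ : ∀ A B : Matrix (Fin n) (Fin n) (MonoidAlgebra K (G ⧸ N)), A * B = 1 → B * A = 1) :
    ∀ A B : Matrix (Fin n) (Fin n) (MonoidAlgebra K G), A * B = 1 → B * A = 1 := by
  obtain ⟨ι, hι, hN⟩ := exists_free_param N
  exact matrix_directlyFinite_of_sep N (fun a ha => sep_free ι hι N hN a ha) n hQ

end

end Vale.Agent.Lib.P194.H60
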