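import Mathlib

namespace Vale.Agent.Lib.P194.H60

/-- Finitely many nontrivial elements of a residually-`p` group are separated from `1`
by one homomorphism to a finite `p`-group. -/
theorem exists_sep (p : ℕ) [Fact p.Prime] (N : Type*) [Group N]
    (hres : ∀ x : N, x ≠ 1 → ∃ (P : Type) (_ : Group P) (_ : Finite P) (f : N →* P),
      IsPGroup p P ∧ f x ≠ 1)
    (D : Finset N) (hD : ∀ d ∈ D, d ≠ 1) :
    ∃ (P : Type) (_ : Group P) (_ : Finite P) (f : N →* P), IsPGroup p P ∧ ∀ d ∈ D, f d ≠ 1 := by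
  classical
  induction D using Finset.induction_on with
  | empty =>
    refine ⟨PUnit, inferInstance, inferInstance, 1, ?_, ?_⟩
    · intro g
      exact ⟨0, Subsingleton.elim _ _⟩
    · intro d hd
      simp at hd
  | insert a s ha ih =>
    obtain ⟨P1, hG1, hF1, f1, hp1, hf1⟩ := ih (fun d hd => hD d (Finset.mem_insert_of_mem hd))
    obtain ⟨P2, hG2, hF2, f2, hp2, hf2⟩ := hres a (hD a (Finset.mem_insert_self a s))
    refine ⟨P1 × P2, inferInstance, inferInstance, f1.prod f2, ?_, ?_⟩
    · intro g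
      obtain ⟨k, hk⟩ := hp1 g.1
      obtain ⟨l, hl⟩ := hp2 g.2
      refine ⟨k + l, ?_⟩
      apply Prod.ext
      · rw [Prod.pow_fst, pow_add, pow_mul, hk, one_pow]
        rfl
      · rw [Prod.pow_snd, pow_add, mul_comm, pow_mul, hl, one_pow]
        rfl
    · intro d hd h1
      have h1' : (f1 d, f2 d) = (1 : P1 × P2) := h1
      rw [Prod.ext_iff] at h1'
      rcases Finset.mem_insert.mp hd with rfl | hd'
      · exact hf2 h1'.2
      · exact hf1 d hd' h1'.1

end Vale.Agent.Lib.P194.H60
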