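import Mathlib
import Vale.Agent.Lib.P194.helper60.Sep

/-!
# Direct finiteness passes up extensions with residually-`p` kernel in characteristic `p`

Independent backup copy (helper60) of steps (1)-(5) and the assembly of the P194 theorem of
helper65: `R` a ring of characteristic `p`, `N` a normal subgroup of `G` that is residually a
finite `p`-group.  If `R[G ⧸ N]` is directly finite then so is `R[G]`.  The nilpotency of the
augmentation ideal of a finite `p`-group algebra (step (6)) enters as the hypothesis `hNil`.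
-/

namespace Vale.Agent.Lib.P194.H60

section Core

variable {R : Type*} [Ring R] {G : Type*} [Group G]

/-- `aug g = g - 1` in `R[G]`. -/
noncomputable def aug (R : Type*) [Ring R] {G : Type*} [Group G] (g : G) : MonoidAlgebra R G :=
  MonoidAlgebra.single g (1 : R) - 1

/-- `S N m`: the additive span of the products `a(n_1) ... a(n_m) c` with `n_i ∈ N`. -/
noncomputable def S (N : Subgroup G) (m : ℕ) : AddSubmonoid (MonoidAlgebra R G) :=
  AddSubmonoid.closure {w | ∃ l : List N, l.length = m ∧ ∃ c : MonoidAlgebra R G,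
    w = (l.map (fun n : N => aug R (n : G))).prod * c}

theorem gen_mem_S (N : Subgroup G) (l : List N) (c : MonoidAlgebra R G) :
    (l.map (fun n : N => aug R (n : G))).prod * c ∈ S (R := R) N l.length :=
  AddSubmonoid.subset_closure ⟨l, rfl, c, rfl⟩

theorem aug_mul_mem_S_one (N : Subgroup G) (n : G) (hn : n ∈ N) (c : MonoidAlgebra R G) :
    aug R n * c ∈ S (R := R) N 1 := by
  have h := gen_mem_S (R := R) N [⟨n, hn⟩] c
  simpa using h

theorem mapDomain_out_eq_zero (N : Subgroup G) (x : MonoidAlgebra R G)
    (hx : MonoidAlgebra.mapDomain (fun g : G => (QuotientGroup.mk g : G ⧸ N)) x = 0) :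
    MonoidAlgebra.mapDomain (fun g : G => Quotient.out (QuotientGroup.mk g : G ⧸ N)) x = 0 := by
  have h2 : MonoidAlgebra.mapDomain
      (fun g : G => Quotient.out (QuotientGroup.mk g : G ⧸ N)) x
      = MonoidAlgebra.mapDomain (fun c : G ⧸ N => Quotient.out c)
        (MonoidAlgebra.mapDomain (fun g : G => (QuotientGroup.mk g : G ⧸ N)) x) := by
    apply MonoidAlgebra.coeff_injective
    simp only [MonoidAlgebra.mapDomain, MonoidAlgebra.coeff_ofCoeff]
    rw [← Finsupp.mapDomain_comp]
    rfl
  rw [h2, hx, MonoidAlgebra.mapDomain_zero]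

/-- Step (1): the kernel of `R[G] → R[G ⧸ N]` is contained in `S N 1`. -/
theorem mem_S_one_of_ker (N : Subgroup G) [N.Normal] (x : MonoidAlgebra R G)
    (hx : MonoidAlgebra.mapDomain (fun g : G => (QuotientGroup.mk g : G ⧸ N)) x = 0) :
    x ∈ S (R := R) N 1 := by
  have key : ∀ y : MonoidAlgebra R G,
      y - MonoidAlgebra.mapDomain
        (fun g : G => Quotient.out (QuotientGroup.mk g : G ⧸ N)) y ∈ S (R := R) N 1 := by
    intro y
    induction y using MonoidAlgebra.induction_linear with
    | zero =>
      rw [MonoidAlgebra.mapDomain_zero, sub_zero]; exact AddSubmonoid.zero_mem _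
    | add y₁ y₂ h₁ h₂ =>
      rw [MonoidAlgebra.mapDomain_add]
      have e : y₁ + y₂ - (MonoidAlgebra.mapDomain
            (fun g : G => Quotient.out (QuotientGroup.mk g : G ⧸ N)) y₁ +
          MonoidAlgebra.mapDomain
            (fun g : G => Quotient.out (QuotientGroup.mk g : G ⧸ N)) y₂)
          = (y₁ - MonoidAlgebra.mapDomain
            (fun g : G => Quotient.out (QuotientGroup.mk g : G ⧸ N)) y₁) +
            (y₂ - MonoidAlgebra.mapDomain
            (fun g : G => Quotient.out (QuotientGroup.mk g : G ⧸ N)) y₂) := by abel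
      rw [e]; exact AddSubmonoid.add_mem _ h₁ h₂
    | single g r =>
      rw [MonoidAlgebra.mapDomain_single]
      set s : G := Quotient.out (QuotientGroup.mk g : G ⧸ N) with hs
      have hmk : (QuotientGroup.mk s : G ⧸ N) = QuotientGroup.mk g := Quotient.out_eq _
      have hz1 : s⁻¹ * g ∈ N := QuotientGroup.eq.mp hmk
      have hz : g * s⁻¹ ∈ N := (Subgroup.Normal.mem_comm_iff inferInstance).mp hz1
      have e : MonoidAlgebra.single g r - MonoidAlgebra.single s r
          = aug R (g * s⁻¹) * MonoidAlgebra.single s r := by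
        rw [aug, sub_mul, one_mul, MonoidAlgebra.single_mul_single, one_mul, inv_mul_cancel_right]
      rw [e]
      exact aug_mul_mem_S_one N _ hz _
  have h := key x
  rwa [mapDomain_out_eq_zero N x hx, sub_zero] at h

/-- `S N 1` is stable under left multiplication (this uses normality of `N`). -/
theorem mul_mem_S_one (N : Subgroup G) [N.Normal] (c w : MonoidAlgebra R G)
    (hw : w ∈ S (R := R) N 1) : c * w ∈ S (R := R) N 1 := by
  refine AddSubmonoid.closure_induction (motive := fun w _ => c * w ∈ S (R := R) N 1)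
    ?_ ?_ ?_ hw
  · rintro w ⟨l, hl, c', rfl⟩
    obtain ⟨n, rfl⟩ := List.length_eq_one_iff.mp hl
    simp only [List.map_cons, List.map_nil, List.prod_cons, List.prod_nil, mul_one]
    induction c using MonoidAlgebra.induction_linear with
    | zero => rw [zero_mul]; exact AddSubmonoid.zero_mem _
    | add c₁ c₂ h₁ h₂ => rw [add_mul]; exact AddSubmonoid.add_mem _ h₁ h₂
    | single g r =>
      have hn : g * (n : G) * g⁻¹ ∈ N := Subgroup.Normal.conj_mem inferInstance _ n.2 g
      have e : MonoidAlgebra.single g r * (aug R (n : G) * c')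
          = aug R (g * (n : G) * g⁻¹) * (MonoidAlgebra.single g r * c') := by
        rw [← mul_assoc, ← mul_assoc]
        congr 1
        rw [aug, aug, mul_sub, sub_mul, mul_one, one_mul, MonoidAlgebra.single_mul_single,
          MonoidAlgebra.single_mul_single, mul_one, one_mul, inv_mul_cancel_right]
      rw [e]
      exact aug_mul_mem_S_one N _ hn _
  · rw [mul_zero]; exact AddSubmonoid.zero_mem _
  · intro a b _ _ ha hb
    rw [mul_add]; exact AddSubmonoid.add_mem _ ha hb

/-- Step (2): `S N m * S N 1 ⊆ S N (m + 1)`. -/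
theorem S_mul_S_one (N : Subgroup G) [N.Normal] (m : ℕ) (y w : MonoidAlgebra R G)
    (hy : y ∈ S (R := R) N m) (hw : w ∈ S (R := R) N 1) : y * w ∈ S (R := R) N (m + 1) := by
  refine AddSubmonoid.closure_induction (motive := fun y _ => y * w ∈ S (R := R) N (m + 1))
    ?_ ?_ ?_ hy
  · rintro y ⟨l, hl, c, rfl⟩
    have hcw : c * w ∈ S (R := R) N 1 := mul_mem_S_one N c w hw
    rw [mul_assoc]
    refine AddSubmonoid.closure_induction
      (motive := fun u _ => (l.map (fun n : N => aug R (n : G))).prod * u ∈ S (R := R) N (m + 1))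
      ?_ ?_ ?_ hcw
    · rintro u ⟨l', hl', c', rfl⟩
      obtain ⟨n, rfl⟩ := List.length_eq_one_iff.mp hl'
      have h := gen_mem_S (R := R) N (l ++ [n]) c'
      rw [List.length_append, hl, List.length_singleton, List.map_append, List.prod_append,
        mul_assoc] at h
      exact h
    · rw [mul_zero]; exact AddSubmonoid.zero_mem _
    · intro a b _ _ ha hb
      rw [mul_add]; exact AddSubmonoid.add_mem _ ha hb
  · rw [zero_mul]; exact AddSubmonoid.zero_mem _
  · intro a b _ _ ha hb
    rw [add_mul]; exact AddSubmonoid.add_mem _ ha hb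

/-- `S N m` is stable under right multiplication. -/
theorem S_mul_right (N : Subgroup G) (m : ℕ) (y c : MonoidAlgebra R G)
    (hy : y ∈ S (R := R) N m) : y * c ∈ S (R := R) N m := by
  refine AddSubmonoid.closure_induction (motive := fun y _ => y * c ∈ S (R := R) N m)
    ?_ ?_ ?_ hy
  · rintro y ⟨l, hl, c', rfl⟩
    rw [mul_assoc]
    exact AddSubmonoid.subset_closure ⟨l, hl, c' * c, rfl⟩
  · rw [zero_mul]; exact AddSubmonoid.zero_mem _
  · intro a b _ _ ha hb
    rw [add_mul]; exact AddSubmonoid.add_mem _ ha hb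

/-- Step (3): an idempotent of `S N 1` lies in every `S N (m + 1)`. -/
theorem idem_mem_S (N : Subgroup G) [N.Normal] (x : MonoidAlgebra R G)
    (hx : x ∈ S (R := R) N 1) (hidem : x * x = x) : ∀ m : ℕ, x ∈ S (R := R) N (m + 1) := by
  intro m
  induction m with
  | zero => exact hx
  | succ m ih =>
    have h := S_mul_S_one N (m + 1) x x ih hx
    rwa [hidem] at h

end Core

section Restrict

variable {R : Type*} [Ring R] {G : Type*} [Group G]

open Classical in
/-- Restriction to `N` followed by the push-forward along `f : N →* P`, as an additive map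
`R[G] → R[P]`. -/
noncomputable def Phi (N : Subgroup G) {P : Type*} [Group P] (f : N →* P) :
    MonoidAlgebra R G →+ MonoidAlgebra R P :=
  (Finsupp.liftAddHom (fun g : G =>
      if h : g ∈ N then MonoidAlgebra.singleAddHom (f ⟨g, h⟩)
      else (0 : R →+ MonoidAlgebra R P))).comp
    (MonoidAlgebra.coeffAddEquiv (R := R) (M := G)).toAddMonoidHom

theorem Phi_single_mem (N : Subgroup G) {P : Type*} [Group P] (f : N →* P) (g : G) (h : g ∈ N)
    (r : R) : Phi N f (MonoidAlgebra.single g r) = MonoidAlgebra.single (f ⟨g, h⟩) r := by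
  classical
  simp [Phi, h]

theorem Phi_single_not_mem (N : Subgroup G) {P : Type*} [Group P] (f : N →* P) (g : G)
    (h : g ∉ N) (r : R) : Phi N f (MonoidAlgebra.single g r) = 0 := by
  classical
  simp [Phi, h]

/-- `Phi` is left `R[N]`-linear. -/
theorem Phi_single_mul (N : Subgroup G) {P : Type*} [Group P] (f : N →* P) (n : N)
    (y : MonoidAlgebra R G) :
    Phi N f (MonoidAlgebra.single (n : G) (1 : R) * y)
      = MonoidAlgebra.single (f n) (1 : R) * Phi N f y := by
  induction y using MonoidAlgebra.induction_linear with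
  | zero => rw [mul_zero, map_zero, mul_zero]
  | add y₁ y₂ h₁ h₂ => rw [mul_add, map_add, map_add, mul_add, h₁, h₂]
  | single g r =>
    rw [MonoidAlgebra.single_mul_single, one_mul]
    by_cases hg : g ∈ N
    · have hng : (n : G) * g ∈ N := N.mul_mem n.2 hg
      rw [Phi_single_mem N f _ hng, Phi_single_mem N f _ hg, MonoidAlgebra.single_mul_single,
        one_mul, ← map_mul]
      rfl
    · have hng : (n : G) * g ∉ N := fun h => hg ((Subgroup.mul_mem_cancel_left N n.2).mp h)
      rw [Phi_single_not_mem N f _ hng, Phi_single_not_mem N f _ hg, mul_zero]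

theorem Phi_aug_mul (N : Subgroup G) {P : Type*} [Group P] (f : N →* P) (n : N)
    (y : MonoidAlgebra R G) :
    Phi N f (aug R (n : G) * y) = (MonoidAlgebra.single (f n) (1 : R) - 1) * Phi N f y := by
  rw [aug, sub_mul, one_mul, map_sub, Phi_single_mul, sub_mul, one_mul]

theorem Phi_prod_mul (N : Subgroup G) {P : Type*} [Group P] (f : N →* P) (l : List N)
    (c : MonoidAlgebra R G) :
    Phi N f ((l.map (fun n : N => aug R (n : G))).prod * c)
      = ((l.map f).map (fun q => (MonoidAlgebra.single q (1 : R) - 1 : MonoidAlgebra R P))).prod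
        * Phi N f c := by
  induction l with
  | nil => simp
  | cons n l ih =>
    simp only [List.map_cons, List.prod_cons]
    rw [mul_assoc, Phi_aug_mul, ih, mul_assoc]

/-- Steps (4)+(6): `Phi` kills `S N m` as soon as all products of `m` augmentation factors vanish
in `R[P]`. -/
theorem Phi_eq_zero_of_mem_S (N : Subgroup G) {P : Type*} [Group P] (f : N →* P) (B m : ℕ)
    (hB : ∀ l : List P, B ≤ l.length →
      (l.map (fun q => (MonoidAlgebra.single q (1 : R) - 1 : MonoidAlgebra R P))).prod = 0)
    (hm : B ≤ m) (y : MonoidAlgebra R G) (hy : y ∈ S (R := R) N m) : Phi N f y = 0 := by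
  refine AddSubmonoid.closure_induction (motive := fun y _ => Phi N f y = 0) ?_ ?_ ?_ hy
  · rintro y ⟨l, hl, c, rfl⟩
    rw [Phi_prod_mul, hB _ (by rw [List.length_map, hl]; exact hm), zero_mul]
  · exact map_zero _
  · intro a b _ _ ha hb
    rw [map_add, ha, hb, add_zero]

/-- Step (5): if `f` separates from `1` the nontrivial elements of `N` in the support of `y`,
then the coefficient at `1` of `Phi y` is the coefficient at `1` of `y`. -/
theorem Phi_coeff_one (N : Subgroup G) {P : Type*} [Group P] (f : N →* P)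
    (y : MonoidAlgebra R G)
    (hsep : ∀ (g : G) (h : g ∈ N), y.coeff g ≠ 0 → g ≠ 1 → f ⟨g, h⟩ ≠ 1) :
    (Phi N f y).coeff 1 = y.coeff 1 := by
  classical
  have key : ∀ g ∈ y.coeff.support,
      (Phi N f (MonoidAlgebra.single g (y.coeff g))).coeff 1
        = if g = 1 then y.coeff 1 else 0 := by
    intro g hg
    by_cases hg1 : g = 1
    · subst hg1
      rw [Phi_single_mem N f _ N.one_mem, if_pos rfl]
      have h1 : f ⟨1, N.one_mem⟩ = 1 := map_one f
      rw [h1]
      simp
    · rw [if_neg hg1]
      by_cases hgN : g ∈ N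
      · rw [Phi_single_mem N f _ hgN]
        have hne : f ⟨g, hgN⟩ ≠ 1 := hsep g hgN (Finsupp.mem_support_iff.mp hg) hg1
        simp [hne]
      · rw [Phi_single_not_mem N f _ hgN]
        simp
  have hy : ∑ g ∈ y.coeff.support, MonoidAlgebra.single g (y.coeff g) = y :=
    MonoidAlgebra.sum_coeff_single y
  calc (Phi N f y).coeff 1
      = (Phi N f (∑ g ∈ y.coeff.support, MonoidAlgebra.single g (y.coeff g))).coeff 1 := by
        rw [hy]
    _ = ∑ g ∈ y.coeff.support, (Phi N f (MonoidAlgebra.single g (y.coeff g))).coeff 1 := by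
        rw [map_sum, MonoidAlgebra.coeff_sum, Finsupp.finsetSum_apply]
    _ = ∑ g ∈ y.coeff.support, (if g = 1 then y.coeff 1 else 0) := Finset.sum_congr rfl key
    _ = y.coeff 1 := by
        rw [Finset.sum_ite_eq']
        split_ifs with h
        · rfl
        · exact (Finsupp.notMem_support_iff.mp h).symm

/-- Steps (4)-(6) together: an element lying in every `S N (m + 1)` is zero, when `N` is
residually a finite `p`-group and the augmentation ideals of finite `p`-group algebras over `R`
are nilpotent. -/
theorem eq_zero_of_forall_mem_S (p : ℕ) [Fact p.Prime] (N : Subgroup G)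
    (hres : ∀ x : N, x ≠ 1 → ∃ (P : Type) (_ : Group P) (_ : Finite P) (f : N →* P),
      IsPGroup p P ∧ f x ≠ 1)
    (hNil : ∀ (P : Type) [Group P] [Finite P], IsPGroup p P →
      ∃ B : ℕ, ∀ l : List P, B ≤ l.length →
        (l.map (fun q => (MonoidAlgebra.single q (1 : R) - 1 : MonoidAlgebra R P))).prod = 0)
    (y : MonoidAlgebra R G) (hy : ∀ m : ℕ, y ∈ S (R := R) N (m + 1)) : y = 0 := by
  classical
  by_contra hne
  obtain ⟨s, hs⟩ : ∃ s : G, y.coeff s ≠ 0 := by
    by_contra hall
    push Not at hall
    apply hne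
    apply MonoidAlgebra.coeff_injective
    ext g
    simpa using hall g
  have h1 : (y * MonoidAlgebra.single s⁻¹ (1 : R)).coeff 1 = y.coeff s := by
    rw [MonoidAlgebra.coeff_mul_single_apply]
    simp
  have hS : ∀ m : ℕ, y * MonoidAlgebra.single s⁻¹ (1 : R) ∈ S (R := R) N (m + 1) :=
    fun m => S_mul_right N _ _ _ (hy m)
  obtain ⟨P, hG, hF, f, hp, hf⟩ := exists_sep p N hres
    (((y * MonoidAlgebra.single s⁻¹ (1 : R)).coeff.support.subtype (· ∈ N)).erase 1)
    (by intro d hd; exact (Finset.mem_erase.mp hd).1)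
  obtain ⟨B, hB⟩ := hNil P hp
  have hz : Phi N f (y * MonoidAlgebra.single s⁻¹ (1 : R)) = 0 :=
    Phi_eq_zero_of_mem_S N f B (B + 1) hB (Nat.le_succ B) _ (hS B)
  have hc : (Phi N f (y * MonoidAlgebra.single s⁻¹ (1 : R))).coeff 1
      = (y * MonoidAlgebra.single s⁻¹ (1 : R)).coeff 1 := by
    apply Phi_coeff_one
    intro g h hg hg1
    apply hf ⟨g, h⟩
    rw [Finset.mem_erase, Finset.mem_subtype]
    exact ⟨fun h' => hg1 (congrArg Subtype.val h'), Finsupp.mem_support_iff.mpr hg⟩
  rw [hz, h1] at hc
  exact hs (by simpa using hc.symm)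

end Restrict

section Main

variable {R : Type*} [Ring R] {G : Type*} [Group G]

/-- **Residually-`p` kernels.** `N` a normal subgroup of `G` that is residually a finite
`p`-group; assume the augmentation ideal of `R[P]` is nilpotent for every finite `p`-group `P`
(true when `R` has characteristic `p`).  If `R[G ⧸ N]` is directly finite, so is `R[G]`. -/
theorem resP_up_of (p : ℕ) [Fact p.Prime] (N : Subgroup G) [N.Normal]
    (hres : ∀ x : N, x ≠ 1 → ∃ (P : Type) (_ : Group P) (_ : Finite P) (f : N →* P),
      IsPGroup p P ∧ f x ≠ 1)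
    (hNil : ∀ (P : Type) [Group P] [Finite P], IsPGroup p P →
      ∃ B : ℕ, ∀ l : List P, B ≤ l.length →
        (l.map (fun q => (MonoidAlgebra.single q (1 : R) - 1 : MonoidAlgebra R P))).prod = 0)
    (hQ : ∀ a b : MonoidAlgebra R (G ⧸ N), a * b = 1 → b * a = 1) :
    ∀ a b : MonoidAlgebra R G, a * b = 1 → b * a = 1 := by
  intro a b hab
  have hmap : ∀ x y : MonoidAlgebra R G,
      MonoidAlgebra.mapDomain (fun g : G => (QuotientGroup.mk g : G ⧸ N)) (x * y)
      = MonoidAlgebra.mapDomain (fun g : G => (QuotientGroup.mk g : G ⧸ N)) x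
        * MonoidAlgebra.mapDomain (fun g : G => (QuotientGroup.mk g : G ⧸ N)) y := by
    intro x y
    exact MonoidAlgebra.mapDomain_mul (QuotientGroup.mk' N) x y
  have hone : MonoidAlgebra.mapDomain (fun g : G => (QuotientGroup.mk g : G ⧸ N))
      (1 : MonoidAlgebra R G) = 1 := MonoidAlgebra.mapDomain_one (QuotientGroup.mk' N)
  have h1 : MonoidAlgebra.mapDomain (fun g : G => (QuotientGroup.mk g : G ⧸ N)) a
      * MonoidAlgebra.mapDomain (fun g : G => (QuotientGroup.mk g : G ⧸ N)) b = 1 := by
    rw [← hmap, hab, hone]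
  have h2 := hQ _ _ h1
  have hker : MonoidAlgebra.mapDomain (fun g : G => (QuotientGroup.mk g : G ⧸ N))
      (1 - b * a) = 0 := by
    have hsub : (1 : MonoidAlgebra R G) - b * a = 1 + (-1 : MonoidAlgebra R G) * (b * a) := by
      noncomm_ring
    have hneg : MonoidAlgebra.mapDomain (fun g : G => (QuotientGroup.mk g : G ⧸ N))
        (-1 : MonoidAlgebra R G) = -1 := by
      have h0 : MonoidAlgebra.mapDomain (fun g : G => (QuotientGroup.mk g : G ⧸ N))
          ((-1 : MonoidAlgebra R G) + 1) = 0 := by
        rw [neg_add_cancel, MonoidAlgebra.mapDomain_zero]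
      rw [MonoidAlgebra.mapDomain_add, hone] at h0
      exact eq_neg_of_add_eq_zero_left h0
    rw [hsub, MonoidAlgebra.mapDomain_add, hone, hmap, hmap, hneg, h2]
    noncomm_ring
  have hidem : (1 - b * a) * (1 - b * a) = 1 - b * a := by
    have hb : b * a * (b * a) = b * a := by
      calc b * a * (b * a) = b * (a * b) * a := by noncomm_ring
        _ = b * a := by rw [hab, mul_one]
    calc (1 - b * a) * (1 - b * a) = 1 - b * a - b * a + b * a * (b * a) := by noncomm_ring
      _ = 1 - b * a := by rw [hb]; abel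
  have hS1 : 1 - b * a ∈ S (R := R) N 1 := mem_S_one_of_ker N _ hker
  have h0 : 1 - b * a = 0 :=
    eq_zero_of_forall_mem_S p N hres hNil _ (idem_mem_S N _ hS1 hidem)
  exact (sub_eq_zero.mp h0).symm

end Main

end Vale.Agent.Lib.P194.H60
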