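import Mathlib
import Vale.Agent.Lib.P194.helper60.ResP

/-!
# Residually-`p` kernels: the matrix form

Entrywise version of `resP_up_of`: if `M_n(R[G ⧸ N])` is directly finite then so is `M_n(R[G])`,
for `N` normal and residually a finite `p`-group, given the nilpotency of the augmentation ideals
of finite `p`-group algebras over `R` (hypothesis `hNil`).
-/

namespace Vale.Agent.Lib.P194.H60

section MatrixForm

variable {R : Type*} [Ring R] {G : Type*} [Group G]

/-- In any ring: if `a * b = 1` then `1 - b * a` is idempotent. -/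
theorem one_sub_mul_idem {A : Type*} [Ring A] (a b : A) (hab : a * b = 1) :
    (1 - b * a) * (1 - b * a) = 1 - b * a := by
  have hb : b * a * (b * a) = b * a := by
    calc b * a * (b * a) = b * (a * b) * a := by noncomm_ring
      _ = b * a := by rw [hab, mul_one]
  calc (1 - b * a) * (1 - b * a) = 1 - b * a - b * a + b * a * (b * a) := by noncomm_ring
    _ = 1 - b * a := by rw [hb]; abel

/-- Entries of `X * Y` lie in `S N (m + 1)` when the entries of `X` lie in `S N m` and those of
`Y` in `S N 1`. -/
theorem matrix_mul_mem_S (N : Subgroup G) [N.Normal] (n m : ℕ)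
    (X Y : Matrix (Fin n) (Fin n) (MonoidAlgebra R G))
    (hX : ∀ i j, X i j ∈ S (R := R) N m) (hY : ∀ i j, Y i j ∈ S (R := R) N 1) :
    ∀ i j, (X * Y) i j ∈ S (R := R) N (m + 1) := by
  intro i j
  rw [Matrix.mul_apply]
  exact AddSubmonoid.sum_mem _ (fun k _ => S_mul_S_one N m _ _ (hX i k) (hY k j))

/-- An idempotent matrix with entries in `S N 1` has its entries in every `S N (m + 1)`. -/
theorem matrix_idem_mem_S (N : Subgroup G) [N.Normal] (n : ℕ)
    (X : Matrix (Fin n) (Fin n) (MonoidAlgebra R G))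
    (hX : ∀ i j, X i j ∈ S (R := R) N 1) (hidem : X * X = X) :
    ∀ (m : ℕ) (i j : Fin n), X i j ∈ S (R := R) N (m + 1) := by
  intro m
  induction m with
  | zero => exact hX
  | succ m ih =>
    intro i j
    have h := matrix_mul_mem_S N n (m + 1) X X ih hX i j
    rwa [hidem] at h

/-- **Residually-`p` kernels, matrix form.** -/
theorem resP_up_matrix_of (p : ℕ) [Fact p.Prime] (N : Subgroup G) [N.Normal]
    (hres : ∀ x : N, x ≠ 1 → ∃ (P : Type) (_ : Group P) (_ : Finite P) (f : N →* P),
      IsPGroup p P ∧ f x ≠ 1)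
    (hNil : ∀ (P : Type) [Group P] [Finite P], IsPGroup p P →
      ∃ B : ℕ, ∀ l : List P, B ≤ l.length →
        (l.map (fun q => (MonoidAlgebra.single q (1 : R) - 1 : MonoidAlgebra R P))).prod = 0)
    (n : ℕ)
    (hQ : ∀ A B : Matrix (Fin n) (Fin n) (MonoidAlgebra R (G ⧸ N)), A * B = 1 → B * A = 1) :
    ∀ A B : Matrix (Fin n) (Fin n) (MonoidAlgebra R G), A * B = 1 → B * A = 1 := by
  intro A B hAB
  have h1 : (MonoidAlgebra.mapDomainRingHom R (QuotientGroup.mk' N)).mapMatrix A
      * (MonoidAlgebra.mapDomainRingHom R (QuotientGroup.mk' N)).mapMatrix B = 1 := by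
    rw [← map_mul, hAB, map_one]
  have h2 := hQ _ _ h1
  have hker : (MonoidAlgebra.mapDomainRingHom R (QuotientGroup.mk' N)).mapMatrix (1 - B * A)
      = 0 := by
    rw [map_sub, map_one, map_mul, h2, sub_self]
  have hentries : ∀ i j, MonoidAlgebra.mapDomain (fun g : G => (QuotientGroup.mk g : G ⧸ N))
      ((1 - B * A) i j) = 0 := by
    intro i j
    have h := congrFun (congrFun hker i) j
    exact h
  have hS : ∀ (m : ℕ) (i j : Fin n), (1 - B * A) i j ∈ S (R := R) N (m + 1) :=
    matrix_idem_mem_S N n _ (fun i j => mem_S_one_of_ker N _ (hentries i j))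
      (one_sub_mul_idem A B hAB)
  have h0 : 1 - B * A = 0 := by
    apply Matrix.ext
    intro i j
    exact eq_zero_of_forall_mem_S p N hres hNil _ (fun m => hS m i j)
  exact (sub_eq_zero.mp h0).symm

end MatrixForm

end Vale.Agent.Lib.P194.H60
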